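import Vale.Agent.P174.Defs

/-!
P174: systems that are nonsingular modulo a prime.
-/

namespace Vale.Agent.P174

universe u

/-- The exponent-sum rows of `w` are linearly independent modulo `p`. -/
def PNonsingular (p : ℕ) {G : Type u} [Group G] {m n : ℕ}
    (w : Fin m → Monoid.Coprod G (FreeGroup (Fin n))) : Prop :=
  LinearIndependent (ZMod p)
    (fun i => fun j => ((Multiplicative.toAdd (expSum G n (w i)) j : ℤ) : ZMod p))

/-- Every system that is nonsingular modulo `p` is solvable over `G`. -/
def HowieP (p : ℕ) (G : Type u) [Group G] : Prop :=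
  ∀ (m n : ℕ) (w : Fin m → Monoid.Coprod G (FreeGroup (Fin n))), PNonsingular p w → Solvable' w

/-- Integer rows independent modulo a prime are independent over `ℚ`. -/
theorem linearIndependent_rat_of_zmod {p : ℕ} [hp : Fact p.Prime] {ι κ : Type} [Fintype ι]
    (a : ι → κ → ℤ) (h : LinearIndependent (ZMod p) fun i j => (a i j : ZMod p)) :
    LinearIndependent ℚ fun i j => (a i j : ℚ) := by
  classical
  -- integer independence by descent, then clear denominators
  have hdesc : ∀ (k : ℕ) (c : ι → ℤ), (∀ j, ∑ i, c i * a i j = 0) →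
      ∀ i, ((p : ℤ) ^ k) ∣ c i := by
    intro k
    induction k with
    | zero => intro c _ i; simp
    | succ k ih =>
      intro c hc i
      have h1 : ∀ i, (p : ℤ) ∣ c i := by
        intro i
        rw [← ZMod.intCast_zmod_eq_zero_iff_dvd]
        refine Fintype.linearIndependent_iff.1 h (fun i => (c i : ZMod p)) ?_ i
        funext j
        simp only [Finset.sum_apply, Pi.smul_apply, smul_eq_mul, Pi.zero_apply]
        exact_mod_cast congrArg (Int.cast : ℤ → ZMod p) (hc j)
      choose d hd using h1
      have h2 := ih d (fun j => by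
        have h3 := hc j
        simp only [hd, mul_assoc, ← Finset.mul_sum] at h3
        rcases mul_eq_zero.1 h3 with h4 | h4
        · exact absurd h4 (by exact_mod_cast hp.out.ne_zero)
        · exact h4) i
      rw [hd i, pow_succ']
      exact mul_dvd_mul_left _ h2
  have hZ : LinearIndependent ℤ a := by
    refine Fintype.linearIndependent_iff.2 fun c hc i => ?_
    have h1 := fun k => hdesc k c (fun j => by simpa [Finset.sum_apply] using congrFun hc j) i
    by_contra hne
    have h2 := Int.le_of_dvd (abs_pos.2 hne) ((dvd_abs _ _).2 (h1 (c i).natAbs))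
    have h3 : (c i).natAbs < p ^ (c i).natAbs := Nat.lt_pow_self hp.out.one_lt
    rw [Int.abs_eq_natAbs] at h2
    exact absurd (by exact_mod_cast h2) (not_le.2 h3)
  refine (LinearIndependent.iff_fractionRing ℤ ℚ).1 ?_
  refine Fintype.linearIndependent_iff.2 fun c hc => Fintype.linearIndependent_iff.1 hZ c ?_
  funext j
  have h1 := congrFun hc j
  simp only [Finset.sum_apply, zsmul_eq_mul, Pi.zero_apply, Pi.mul_apply, Pi.intCast_apply] at h1
  simp only [Finset.sum_apply, Pi.smul_apply, smul_eq_mul, Pi.zero_apply]
  exact_mod_cast h1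

theorem PNonsingular.nonsingular {p : ℕ} [Fact p.Prime] {G : Type u} [Group G] {m n : ℕ}
    {w : Fin m → Monoid.Coprod G (FreeGroup (Fin n))} (h : PNonsingular p w) : Nonsingular w :=
  linearIndependent_rat_of_zmod (fun i j => Multiplicative.toAdd (expSum G n (w i)) j) h

/-- A group satisfying Howie's conjecture solves every system nonsingular modulo a prime. -/
theorem Howie.howieP {p : ℕ} [Fact p.Prime] {G : Type u} [Group G] (h : Howie G) : HowieP p G :=
  fun m n w hw => h m n w hw.nonsingular

theorem HowieP.of_injective {p : ℕ} {G : Type u} [Group G] {K : Type u} [Group K]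
    (hG : HowieP p G) (φ : K →* G) (hφ : Function.Injective φ) : HowieP p K := by
  intro m n w hw
  let Ψ : Monoid.Coprod K (FreeGroup (Fin n)) →* Monoid.Coprod G (FreeGroup (Fin n)) :=
    Monoid.Coprod.map φ (MonoidHom.id _)
  have hexp : (expSum G n).comp Ψ = expSum K n := by
    apply Monoid.Coprod.hom_ext <;> ext x <;> simp [expSum, Ψ]
  have hw' : PNonsingular p (fun i => Ψ (w i)) := by
    unfold PNonsingular
    simp only [← MonoidHom.comp_apply, hexp]
    exact hw
  obtain ⟨H, hH, ι, h, hι, hs⟩ := hG m n _ hw'
  refine ⟨H, hH, ι.comp φ, h, hι.comp hφ, fun i => ?_⟩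
  have h1 : Monoid.Coprod.lift (ι.comp φ) (FreeGroup.lift h) =
      (Monoid.Coprod.lift ι (FreeGroup.lift h)).comp Ψ := by
    apply Monoid.Coprod.hom_ext <;> ext x <;> simp [Ψ]
  rw [h1]
  exact hs i

end Vale.Agent.P174
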