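import Vale.Agent.P174.P.Main
import Vale.Agent.P174.Hyperlinear

/-!
P174: extensions with quotient residually p or locally p-indicable, separation, single equations.
-/

namespace Vale.Agent.P174.P

universe u

variable {G : Type u} [Group G]

/-- Every nontrivial finitely generated subgroup has a nontrivial homomorphism to `ZMod p`. -/
def LocallyPIndicable (p : ℕ) (G : Type u) [Group G] : Prop :=
  ∀ K : Subgroup G, K.FG → K ≠ ⊥ → ∃ φ : K →* Multiplicative (ZMod p), φ ≠ 1

/-- Every nontrivial element survives in a finite `p`-group. -/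
def ResiduallyP (p : ℕ) (G : Type u) [Group G] : Prop :=
  ∀ g : G, g ≠ 1 → ∃ (P : Type u) (_ : Group P) (f : G →* P),
    Finite P ∧ IsPGroup p P ∧ f g ≠ 1

theorem exists_hom_zmod {p : ℕ} [hp : Fact p.Prime] (P : Type u) [Group P] [Finite P]
    [Nontrivial P] (hP : IsPGroup p P) : ∃ φ : P →* Multiplicative (ZMod p), φ ≠ 1 := by
  classical
  have := hP.isNilpotent
  have hlt : commutator P ≠ ⊤ := (Group.IsSolvable.commutator_lt_top_of_nontrivial P).ne
  have : Nontrivial (Abelianization P) := by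
    obtain ⟨x, hx⟩ : ∃ x : P, x ∉ commutator P := by
      by_contra! h
      exact hlt ((Subgroup.eq_top_iff' _).2 h)
    exact ⟨⟨Abelianization.of x, 1, fun h => hx ((QuotientGroup.eq_one_iff x).1 h)⟩⟩
  have hA : IsPGroup p (Abelianization P) :=
    hP.of_surjective Abelianization.of (QuotientGroup.mk'_surjective _)
  let R : Subgroup (Abelianization P) := (powMonoidHom p).range
  have hR : R ≠ ⊤ := by
    intro h
    have hsurj : Function.Surjective (powMonoidHom p : Abelianization P →* Abelianization P) :=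
      MonoidHom.range_eq_top.1 h
    have hinj := Finite.injective_iff_surjective.2 hsurj
    obtain ⟨x, hx⟩ := exists_ne (1 : Abelianization P)
    obtain ⟨k, hk⟩ := hA x
    have : ∀ k, x ^ p ^ k = 1 → x = 1 := by
      intro k
      induction k with
      | zero => simp
      | succ k ih =>
        intro h1
        refine ih (hinj ?_)
        show (x ^ p ^ k) ^ p = 1 ^ p
        rw [one_pow, ← pow_mul, ← pow_succ, h1]
    exact hx (this k hk)
  let Q := Additive (Abelianization P ⧸ R)
  let _hmod : Module (ZMod p) Q := AddCommGroup.zmodModule (by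
    intro x
    obtain ⟨y, rfl⟩ := Additive.ofMul.surjective x
    obtain ⟨z, rfl⟩ := QuotientGroup.mk'_surjective R y
    rw [← ofMul_pow, ← map_pow, ofMul_eq_zero, QuotientGroup.mk'_apply, QuotientGroup.eq_one_iff]
    exact ⟨z, rfl⟩)
  obtain ⟨a, ha⟩ : ∃ a : Abelianization P, a ∉ R := by
    by_contra! h
    exact hR ((Subgroup.eq_top_iff' _).2 h)
  let q : Q := Additive.ofMul (QuotientGroup.mk' R a)
  have hq : q ≠ 0 := fun h => ha ((QuotientGroup.eq_one_iff a).1 h)
  obtain ⟨F, hF⟩ : ∃ F : Q →ₗ[ZMod p] ZMod p, (LinearMap.toAddMonoidHom F) q ≠ 0 := by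
    by_contra! h
    exact hq ((Module.forall_dual_apply_eq_zero_iff (ZMod p) q).1 h)
  let ψ : Abelianization P →* Multiplicative (ZMod p) :=
    (AddMonoidHom.toMultiplicativeRight F.toAddMonoidHom).comp (QuotientGroup.mk' R)
  refine ⟨ψ.comp Abelianization.of, fun h => hF ?_⟩
  obtain ⟨x, rfl⟩ := QuotientGroup.mk'_surjective _ a
  exact DFunLike.congr_fun h x

theorem ResiduallyP.locallyPIndicable {p : ℕ} [Fact p.Prime] (h : ResiduallyP p G) :
    LocallyPIndicable p G := by
  intro K _ hne
  obtain ⟨g, hg1⟩ := K.ne_bot_iff_exists_ne_one.1 hne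
  obtain ⟨P, _, f, hfin, hP, hfg⟩ := h (g : G) (fun e => hg1 (Subtype.ext e))
  let fK : K →* P := f.comp K.subtype
  have : Nontrivial fK.range :=
    ⟨⟨⟨fK g, ⟨g, rfl⟩⟩, 1, fun e => hfg (congrArg Subtype.val e)⟩⟩
  obtain ⟨φ, hφ⟩ := exists_hom_zmod fK.range (hP.to_subgroup _)
  refine ⟨φ.comp fK.rangeRestrict, fun e => hφ ?_⟩
  ext x
  obtain ⟨y, rfl⟩ := fK.rangeRestrict_surjective x
  exact DFunLike.congr_fun e y

theorem howieP_extension {p : ℕ} [Fact p.Prime] (N : Subgroup G) [N.Normal] (hN : HowieP p N)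
    (hQ : LocallyPIndicable p (G ⧸ N)) : HowieP p G := by
  refine howieP_of_forall_fg fun K hK => ?_
  by_cases hKN : K ≤ N
  · exact Or.inl (hN.of_injective (Subgroup.inclusion hKN) (Subgroup.inclusion_injective hKN))
  · refine Or.inr ?_
    let q := QuotientGroup.mk' N
    have hKq : (K.map q).FG := by
      obtain ⟨S, hS, hfin⟩ := (Subgroup.fg_iff K).1 hK
      exact (Subgroup.fg_iff _).2 ⟨q '' S, by rw [← MonoidHom.map_closure, hS], hfin.image _⟩
    have hne : K.map q ≠ ⊥ := by
      rw [Ne, Subgroup.map_eq_bot_iff, QuotientGroup.ker_mk']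
      exact hKN
    obtain ⟨φ, hφ⟩ := hQ _ hKq hne
    refine ⟨φ.comp (q.subgroupMap K), fun e => hφ ?_⟩
    ext x
    obtain ⟨y, rfl⟩ := q.subgroupMap_surjective K x
    exact DFunLike.congr_fun e y

/-- A system is solvable if its images over separating quotients are. -/
theorem solvable_of_separated {m n : ℕ} (w : Fin m → Monoid.Coprod G (FreeGroup (Fin n)))
    (hsep : ∀ g : G, g ≠ 1 → ∃ (K : Type u) (_ : Group K) (f : G →* K), f g ≠ 1 ∧
      Solvable' (fun i => Monoid.Coprod.map f (MonoidHom.id (FreeGroup (Fin n))) (w i))) :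
    Solvable' w := by
  choose K hK f hne hsol using hsep
  choose H hH ι h hι hs using hsol
  let P : Type u := (g : {g : G // g ≠ 1}) → H g.1 g.2
  refine ⟨P, inferInstance, MonoidHom.pi fun g => (ι g.1 g.2).comp (f g.1 g.2),
    fun j g => h g.1 g.2 j, ?_, fun i => ?_⟩
  · refine (injective_iff_map_eq_one _).2 fun g hg => ?_
    by_contra hne'
    exact hne g hne' (hι g hne' (((congrFun hg ⟨g, hne'⟩ :) :
      ι g hne' (f g hne' g) = 1).trans (map_one _).symm))
  · funext g
    have h1 : (Pi.evalMonoidHom (fun g : {g : G // g ≠ 1} => H g.1 g.2) g).comp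
        (Monoid.Coprod.lift (MonoidHom.pi fun g => (ι g.1 g.2).comp (f g.1 g.2))
          (FreeGroup.lift fun (j : Fin n) (g : {g : G // g ≠ 1}) => h g.1 g.2 j)) =
        (Monoid.Coprod.lift (ι g.1 g.2) (FreeGroup.lift (h g.1 g.2))).comp
          (Monoid.Coprod.map (f g.1 g.2) (MonoidHom.id _)) := by
      apply Monoid.Coprod.hom_ext <;> ext x <;> simp
    exact (DFunLike.congr_fun h1 (w i)).trans (hs g.1 g.2 i)

theorem pNonsingular_map {p : ℕ} {K : Type u} [Group K] {m n : ℕ}
    (w : Fin m → Monoid.Coprod G (FreeGroup (Fin n))) (f : G →* K) (hw : PNonsingular p w) :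
    PNonsingular p (fun i => Monoid.Coprod.map f (MonoidHom.id (FreeGroup (Fin n))) (w i)) := by
  have hexp : (expSum K n).comp (Monoid.Coprod.map f (MonoidHom.id _)) = expSum G n := by
    apply Monoid.Coprod.hom_ext <;> ext x <;> simp [expSum]
  unfold PNonsingular
  simp only [← MonoidHom.comp_apply, hexp]
  exact hw

/-- Unimodular systems over groups separated by quotients good at some prime are solvable. -/
theorem solvable_of_unimodular {m n : ℕ} (w : Fin m → Monoid.Coprod G (FreeGroup (Fin n)))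
    (hG : ∀ g : G, g ≠ 1 → ∃ (p : ℕ) (_ : Fact p.Prime) (K : Type u) (_ : Group K) (f : G →* K),
      HowieP p K ∧ f g ≠ 1)
    (hw : ∀ (p : ℕ) [Fact p.Prime], PNonsingular p w) : Solvable' w := by
  refine solvable_of_separated w fun g hg => ?_
  obtain ⟨p, _, K, _, f, hK, hne⟩ := hG g hg
  exact ⟨K, inferInstance, f, hne, hK m n _ (pNonsingular_map w f (hw p))⟩

/-- A single equation with an exponent sum prime to `p` is nonsingular modulo `p`. -/
theorem pNonsingular_single {p : ℕ} [Fact p.Prime] {n : ℕ}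
    (w : Monoid.Coprod G (FreeGroup (Fin n))) (j : Fin n)
    (hj : ¬ (p : ℤ) ∣ Multiplicative.toAdd (expSum G n w) j) :
    PNonsingular p (fun _ : Fin 1 => w) := by
  refine LinearIndependent.of_subsingleton 0 fun h => hj ?_
  rw [← ZMod.intCast_zmod_eq_zero_iff_dvd]
  exact congrFun h j

end Vale.Agent.P174.P
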