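import Vale.Agent.P174.P.Induction
import Vale.Agent.P174.Main

/-!
P174: systems nonsingular modulo a prime over groups built by residually-p extensions.
-/

namespace Vale.Agent.P174.P

universe u

variable {G : Type u} [Group G]

theorem eq_one_of_mem_normalClosure {ℓ : ℕ} [Fact ℓ.Prime]
    (hG : ∀ K : Subgroup G, K.FG → HowieP ℓ K ∨ ∃ φ : K →* Multiplicative (ZMod ℓ), φ ≠ 1)
    {m n : ℕ} (w : Fin m → Monoid.Coprod G (FreeGroup (Fin n))) (hw : PNonsingular ℓ w) (g : G)
    (hg : (Monoid.Coprod.inl g : Monoid.Coprod G (FreeGroup (Fin n))) ∈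
      Subgroup.normalClosure (Set.range w)) : g = 1 := by
  classical
  by_contra hne
  let π : FreeGroup (G ⊕ ULift.{u} (Fin n)) →* Monoid.Coprod G (FreeGroup (Fin n)) :=
    FreeGroup.lift (Sum.elim (fun a => Monoid.Coprod.inl a)
      (fun x => Monoid.Coprod.inr (FreeGroup.of x.down)))
  have hsurj : ∀ z, ∃ L, π (FreeGroup.mk L) = z := by
    intro z
    suffices z ∈ π.range by
      obtain ⟨y, rfl⟩ := this
      exact ⟨y.toWord, by rw [FreeGroup.mk_toWord]⟩
    induction z using Monoid.Coprod.induction_on with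
    | inl a => exact ⟨FreeGroup.of (Sum.inl a), by simp [π]⟩
    | inr y =>
      induction y using FreeGroup.induction_on with
      | C1 => simp
      | of j => exact ⟨FreeGroup.of (Sum.inr ⟨j⟩), by simp [π]⟩
      | inv_of j h => rw [map_inv]; exact π.range.inv_mem h
      | mul a b ha hb => rw [map_mul]; exact π.range.mul_mem ha hb
    | mul a b ha hb => exact π.range.mul_mem ha hb
  choose Lw hLw using fun i => hsurj (w i)
  let core : ULift.{u} (Fin m) ⊕ (G × G) → List ((G ⊕ ULift.{u} (Fin n)) × Bool) :=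
    core0 (fun i => Lw i.down)
  let N : Subgroup (FreeGroup (G ⊕ ULift.{u} (Fin n))) :=
    Subgroup.normalClosure (Set.range fun j => FreeGroup.mk (core j))
  let mk' := QuotientGroup.mk' N
  have hcore1 : ∀ j, mk' (FreeGroup.mk (core j)) = 1 := fun j =>
    (QuotientGroup.eq_one_iff _).2 (Subgroup.subset_normalClosure ⟨j, rfl⟩)
  let jh : G →* FreeGroup (G ⊕ ULift.{u} (Fin n)) ⧸ N :=
    MonoidHom.mk' (fun a => mk' (FreeGroup.of (Sum.inl a))) (fun a b => by
      have h1 := hcore1 (Sum.inr (a, b))
      have h2 : FreeGroup.mk (core (Sum.inr (a, b))) = FreeGroup.of (Sum.inl a) *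
          FreeGroup.of (Sum.inl b) * (FreeGroup.of (Sum.inl (a * b)))⁻¹ := by
        simp [core, core0, FreeGroup.of, FreeGroup.inv_mk, FreeGroup.mul_mk, FreeGroup.invRev]
      rw [h2, map_mul, map_mul, map_inv, mul_inv_eq_one] at h1
      exact h1.symm)
  let back : Monoid.Coprod G (FreeGroup (Fin n)) →* FreeGroup (G ⊕ ULift.{u} (Fin n)) ⧸ N :=
    Monoid.Coprod.lift jh (FreeGroup.lift fun j => mk' (FreeGroup.of (Sum.inr ⟨j⟩)))
  have hback : back.comp π = mk' := by
    ext x
    rcases x with a | x <;> simp [back, π, jh]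
  have hker : Subgroup.normalClosure (Set.range w) ≤ back.ker := by
    refine Subgroup.normalClosure_le_normal ?_
    rintro _ ⟨i, rfl⟩
    show back (w i) = 1
    rw [← hLw i, ← MonoidHom.comp_apply, hback]
    exact hcore1 (Sum.inl ⟨i⟩)
  have hgN : FreeGroup.mk [((Sum.inl g : G ⊕ ULift.{u} (Fin n)), true)] ∈ N := by
    refine (QuotientGroup.eq_one_iff _).1 ?_
    have h1 : back (Monoid.Coprod.inl g) = 1 := hker hg
    show mk' (FreeGroup.of (Sum.inl g)) = 1
    simpa [back, jh, mk'] using h1
  have hlist : ∀ z ∈ N, ∃ l : List (List ((G ⊕ ULift.{u} (Fin n)) × Bool) ×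
      (ULift.{u} (Fin m) ⊕ (G × G)) × Bool), z = FreeGroup.mk (l.flatMap (block core)) := by
    intro z hz
    induction hz using Subgroup.closure_induction_left with
    | one => exact ⟨[], rfl⟩
    | mul_left x hx y _ ih =>
      obtain ⟨l, rfl⟩ := ih
      obtain ⟨_, ⟨j, rfl⟩, hc⟩ := Group.mem_conjugatesOfSet_iff.1 hx
      obtain ⟨c, rfl⟩ := isConj_iff.1 hc
      refine ⟨(c.toWord, j, true) :: l, ?_⟩
      rw [List.flatMap_cons, ← FreeGroup.mul_mk]
      simp only [block, if_true]
      rw [← FreeGroup.mul_mk, ← FreeGroup.mul_mk, ← FreeGroup.inv_mk, FreeGroup.mk_toWord]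
      group
    | inv_mul_cancel x hx y _ ih =>
      obtain ⟨l, rfl⟩ := ih
      obtain ⟨_, ⟨j, rfl⟩, hc⟩ := Group.mem_conjugatesOfSet_iff.1 hx
      obtain ⟨c, rfl⟩ := isConj_iff.1 hc
      refine ⟨(c.toWord, j, false) :: l, ?_⟩
      rw [List.flatMap_cons, ← FreeGroup.mul_mk]
      simp only [block, Bool.false_eq_true, if_false]
      rw [← FreeGroup.mul_mk, ← FreeGroup.mul_mk, ← FreeGroup.inv_mk, ← FreeGroup.inv_mk,
        FreeGroup.mk_toWord]
      group
  obtain ⟨items, hitems⟩ := hlist _ hgN
  have hexpo : ∀ L j, ((Multiplicative.toAdd (expSum G n (π (FreeGroup.mk L))) j : ℤ) : (ZMod ℓ)) =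
      expo ℓ L (ULift.up j) := by
    intro L j
    induction L with
    | nil => simp [π, FreeGroup.lift_mk, expo_nil]
    | cons a L ih =>
      have hsplit : FreeGroup.mk (a :: L) = FreeGroup.mk [a] * FreeGroup.mk L := by
        rw [FreeGroup.mul_mk]; rfl
      rw [hsplit, map_mul, map_mul, toAdd_mul, Pi.add_apply, Int.cast_add, ih, expo_cons,
        Finsupp.add_apply]
      congr 1
      obtain ⟨c | x, b⟩ := a
      · cases b <;> simp [π, FreeGroup.lift_mk, lex, expSum]
      · obtain ⟨y⟩ := x
        by_cases hj : y = j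
        · subst hj
          cases b <;> simp [π, FreeGroup.lift_mk, lex, expSum]
        · have hx : (ULift.up j : ULift.{u} (Fin n)) ≠ ULift.up y :=
            fun e => hj (congrArg ULift.down e).symm
          cases b <;> simp [π, FreeGroup.lift_mk, lex, expSum, Finsupp.single_eq_of_ne hx,
            Pi.single_eq_of_ne (Ne.symm hj)]
  have hindep : LinearIndependent (ZMod ℓ) (fun i => expo ℓ (core (Sum.inl i))) := by
    let Φ : (ULift.{u} (Fin n) →₀ (ZMod ℓ)) →ₗ[(ZMod ℓ)] (Fin n → (ZMod ℓ)) :=
      LinearMap.pi fun j => Finsupp.lapply (ULift.up j)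
    refine LinearIndependent.of_comp Φ ?_
    have h1 : (Φ ∘ fun i => expo ℓ (core (Sum.inl i))) = fun i : ULift.{u} (Fin m) =>
        (fun j => ((Multiplicative.toAdd (expSum G n (w i.down)) j : ℤ) : (ZMod ℓ))) := by
      funext i j
      rw [← hLw, hexpo]
      rfl
    rw [h1]
    exact LinearIndependent.comp hw ULift.down ULift.down_injective
  exact stage_false hG
    { V := PUnit.{u + 1}
      C := G
      X := ULift.{u} (Fin n)
      I := ULift.{u} (Fin m)
      R := G × G
      s := fun _ => PUnit.unit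
      t := fun _ => PUnit.unit
      val := id
      core := core
      base := fun _ => PUnit.unit
      o := PUnit.unit
      lhs := [(Sum.inl g, true)]
      items := items
      indep := hindep
      path_lhs := isPath_punit _ _ _ _ _
      coef_lhs := fun a ha => ⟨g, by simp at ha; rw [ha]⟩
      ev_lhs := by simpa [ev, FreeGroup.lift_mk] using hne
      path_conj := fun _ _ => isPath_punit _ _ _ _ _
      path_core := fun _ _ => isPath_punit _ _ _ _ _
      rel := fun it _ r hr => by
        rw [hr]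
        refine ⟨fun a ha => ?_, ?_⟩
        · simp [core, core0] at ha
          rcases ha with rfl | rfl | rfl <;> exact ⟨_, rfl⟩
        · simp [core, core0, ev, FreeGroup.lift_mk]
      ident := hitems }

/-- If every finitely generated subgroup solves the systems nonsingular modulo `ℓ` or has a
nontrivial homomorphism to `ZMod ℓ`, then so does the group. -/
theorem howieP_of_forall_fg {ℓ : ℕ} [Fact ℓ.Prime]
    (hG : ∀ K : Subgroup G, K.FG → HowieP ℓ K ∨ ∃ φ : K →* Multiplicative (ZMod ℓ), φ ≠ 1) : HowieP ℓ G := by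
  intro m n w hw
  let N : Subgroup (Monoid.Coprod G (FreeGroup (Fin n))) := Subgroup.normalClosure (Set.range w)
  let mk' := QuotientGroup.mk' N
  refine ⟨Monoid.Coprod G (FreeGroup (Fin n)) ⧸ N, inferInstance, mk'.comp Monoid.Coprod.inl,
    fun j => mk' (Monoid.Coprod.inr (FreeGroup.of j)), ?_, fun i => ?_⟩
  · refine (injective_iff_map_eq_one _).2 fun g hg => ?_
    exact eq_one_of_mem_normalClosure hG w hw g ((QuotientGroup.eq_one_iff _).1 hg)
  · have h1 : Monoid.Coprod.lift (mk'.comp Monoid.Coprod.inl)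
        (FreeGroup.lift fun j => mk' (Monoid.Coprod.inr (FreeGroup.of j))) = mk' := by
      apply Monoid.Coprod.hom_ext
      · rw [Monoid.Coprod.lift_comp_inl]
      · rw [Monoid.Coprod.lift_comp_inr]
        ext j
        simp
    rw [h1]
    exact (QuotientGroup.eq_one_iff _).2 (Subgroup.subset_normalClosure ⟨i, rfl⟩)


end Vale.Agent.P174.P
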